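import Vale.Agent.P286.Site
import Vale.Agent.P286.St.Bun

/-!
# The sites of `Bun_{SL_n/μ_d}(ℙ¹)` and of `B(SL_n/μ_d)`
-/

namespace Vale.Agent.P286

open CategoryTheory LaurentPolynomial

noncomputable section

section Framing

variable {n : ℕ} {A B : Type} [CommRing A] [CommRing B]

/-- `SL_n(A[z])` acts on `M_n(A[z⁻¹]) = M_n(A[z,z⁻¹])/z M_n(A[z])` by conjugation. -/
def toepPos (n : ℕ) (A : Type) [CommRing A] :
    Matrix.SpecialLinearGroup (Fin n) (Polynomial A) →* (Module.End A (Ix n →₀ A))ˣ :=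
  MonoidHom.toHomUnits
    { toFun := fun a => toep (posGL n A a)
      map_one' := by rw [map_one, toep_one]
      map_mul' := fun a a' => by rw [map_mul, toep_pos_mul] }

/-- `SL_n(A[z⁻¹])` acts on `M_n(A[z⁻¹])` by conjugation. -/
def toepNeg (n : ℕ) (A : Type) [CommRing A] :
    Matrix.SpecialLinearGroup (Fin n) (Polynomial A) →* (Module.End A (Ix n →₀ A))ˣ :=
  MonoidHom.toHomUnits
    { toFun := fun b => toep (negGL n A b)
      map_one' := by rw [map_one, toep_one]
      map_mul' := fun b b' => by rw [map_mul, toep_mul_neg] }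

/-- Base change of invertible operators. -/
def bcU (n : ℕ) (f : A →+* B) : (Module.End A (Ix n →₀ A))ˣ →* (Module.End B (Ix n →₀ B))ˣ :=
  Units.map (bcHom (Ix n) f)

/-- The framing of `g' = a f(g) b⁻¹` induced by a framing of `g`. -/
def transport (f : A →+* B) (a b : Matrix.SpecialLinearGroup (Fin n) (Polynomial B))
    (S : (Module.End A (Ix n →₀ A))ˣ) : (Module.End B (Ix n →₀ B))ˣ :=
  toepPos n B a * bcU n f S * (toepNeg n B b)⁻¹

theorem ring_aux₁ {E : Type*} [Ring E] (p s t q : E) : p * s * q - p * (t * q) = p * (s - t) * q := by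
  noncomm_ring

theorem ring_aux₂ {E : Type*} [Ring E] (s s' t : E) (r : E) (h : s' * r = 1) :
    s * r - 1 = ((s - t) - (s' - t)) * r := by
  rw [sub_sub_sub_cancel_right, sub_mul, h]

theorem ring_aux₃ {E : Type*} [Ring E] (p q s : E) (h : p * q = 1) :
    p * s * q - 1 = p * (s - 1) * q := by
  rw [mul_sub, sub_mul, mul_one, h]

theorem IsFraming.transport {g : Matrix.GeneralLinearGroup (Fin n) A[T;T⁻¹]}
    {S : (Module.End A (Ix n →₀ A))ˣ} (h : IsFraming g S) (f : A →+* B)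
    {a b : Matrix.SpecialLinearGroup (Fin n) (Polynomial B)}
    {g' : Matrix.GeneralLinearGroup (Fin n) B[T;T⁻¹]}
    (e : g' * negGL n B b = posGL n B a * Matrix.GeneralLinearGroup.map (lmap f) g) :
    IsFraming g' (P286.transport f a b S) := by
  have e1 : g' = posGL n B a * (Matrix.GeneralLinearGroup.map (lmap f) g * negGL n B b⁻¹) := by
    rw [← mul_assoc, ← e, mul_assoc, ← map_mul, mul_inv_cancel, map_one, mul_one]
  have e2 : ((P286.transport f a b S : (Module.End B (Ix n →₀ B))ˣ) : Module.End B (Ix n →₀ B)) -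
      toep g' = toep (posGL n B a) * bc f ((S : Module.End A (Ix n →₀ A)) - toep g) *
        toep (negGL n B b⁻¹) := by
    rw [e1, toep_pos_mul, toep_mul_neg, ← bc_toep, bc_sub]
    exact ring_aux₁ (toep (posGL n B a)) (bc f S) (bc f (toep g)) (toep (negGL n B b⁻¹))
  unfold IsFraming
  rw [e2]
  exact ((h.bc f).mul_left _).mul_right _

theorem IsFraming.div {g : Matrix.GeneralLinearGroup (Fin n) A[T;T⁻¹]}
    {S S' : (Module.End A (Ix n →₀ A))ˣ} (h : IsFraming g S) (h' : IsFraming g S') :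
    FinRank (((S * S'⁻¹ : (Module.End A (Ix n →₀ A))ˣ) : Module.End A (Ix n →₀ A)) - 1) := by
  have e : ((S * S'⁻¹ : (Module.End A (Ix n →₀ A))ˣ) : Module.End A (Ix n →₀ A)) - 1 =
      (((S : Module.End A (Ix n →₀ A)) - toep g) - ((S' : Module.End A (Ix n →₀ A)) - toep g)) *
        ((S'⁻¹ : (Module.End A (Ix n →₀ A))ˣ) : Module.End A (Ix n →₀ A)) :=
    ring_aux₂ (S : Module.End A (Ix n →₀ A)) (S' : Module.End A (Ix n →₀ A)) (toep g)
      ((S'⁻¹ : (Module.End A (Ix n →₀ A))ˣ) : Module.End A (Ix n →₀ A)) (Units.mul_inv S')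
  rw [e]
  exact (h.sub h').mul_right _

theorem bcU_toepPos (f : A →+* B) (a : Matrix.SpecialLinearGroup (Fin n) (Polynomial A)) :
    bcU n f (toepPos n A a) = toepPos n B (slm n f a) := by
  apply Units.ext
  change bc f (toep (posGL n A a)) = toep (posGL n B (slm n f a))
  rw [bc_toep, map_posGL]

theorem bcU_toepNeg (f : A →+* B) (b : Matrix.SpecialLinearGroup (Fin n) (Polynomial A)) :
    bcU n f (toepNeg n A b) = toepNeg n B (slm n f b) := by
  apply Units.ext
  change bc f (toep (negGL n A b)) = toep (negGL n B (slm n f b))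
  rw [bc_toep, map_negGL]

theorem bcU_bcU {D : Type} [CommRing D] (f : A →+* B) (g : B →+* D)
    (S : (Module.End A (Ix n →₀ A))ˣ) : bcU n g (bcU n f S) = bcU n (g.comp f) S := by
  apply Units.ext
  exact bc_bc f g _

theorem bcU_id (S : (Module.End A (Ix n →₀ A))ˣ) : bcU n (RingHom.id A) S = S := by
  apply Units.ext
  exact bc_id _

theorem transport_transport {D : Type} [CommRing D] (f : A →+* B) (g : B →+* D)
    (a b : Matrix.SpecialLinearGroup (Fin n) (Polynomial B))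
    (a' b' : Matrix.SpecialLinearGroup (Fin n) (Polynomial D)) (S : (Module.End A (Ix n →₀ A))ˣ) :
    transport g a' b' (transport f a b S) =
      transport (g.comp f) (a' * slm n g a) (b' * slm n g b) S := by
  simp only [transport, map_mul, map_inv, bcU_toepPos, bcU_toepNeg, bcU_bcU, mul_assoc,
    mul_inv_rev]

/-- The unit `δ` with `t_{S'} = δ • t_S`, for two framings `S, S'` of the same determinant line. -/
def ratio (S S' : (Module.End A (Ix n →₀ A))ˣ)
    (h : FinRank (((S * S'⁻¹ : (Module.End A (Ix n →₀ A))ˣ) : Module.End A (Ix n →₀ A)) - 1)) :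
    Aˣ :=
  (isUnit_fdet h (Units.isUnit _)).unit

theorem ratio_val (S S' : (Module.End A (Ix n →₀ A))ˣ)
    (h : FinRank (((S * S'⁻¹ : (Module.End A (Ix n →₀ A))ˣ) : Module.End A (Ix n →₀ A)) - 1)) :
    (ratio S S' h : A) =
      fdet ((S * S'⁻¹ : (Module.End A (Ix n →₀ A))ˣ) : Module.End A (Ix n →₀ A)) := rfl

/-- The cocycle property of the Fredholm determinant. -/
theorem fdet_cocycle (f : A →+* B) (a b : Matrix.SpecialLinearGroup (Fin n) (Polynomial B))
    (U S : (Module.End A (Ix n →₀ A))ˣ) (S' : (Module.End B (Ix n →₀ B))ˣ)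
    (h : FinRank (((U * S⁻¹ : (Module.End A (Ix n →₀ A))ˣ) : Module.End A (Ix n →₀ A)) - 1))
    (h' : FinRank (((transport f a b S * S'⁻¹ : (Module.End B (Ix n →₀ B))ˣ) :
      Module.End B (Ix n →₀ B)) - 1)) :
    fdet ((transport f a b U * S'⁻¹ : (Module.End B (Ix n →₀ B))ˣ) : Module.End B (Ix n →₀ B)) =
      fdet ((transport f a b S * S'⁻¹ : (Module.End B (Ix n →₀ B))ˣ) : Module.End B (Ix n →₀ B)) *
        f (fdet ((U * S⁻¹ : (Module.End A (Ix n →₀ A))ˣ) : Module.End A (Ix n →₀ A))) := by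
  have e : transport f a b U * S'⁻¹ = (toepPos n B a * bcU n f (U * S⁻¹) * (toepPos n B a)⁻¹) *
      (transport f a b S * S'⁻¹) := by
    simp only [transport, map_mul, map_inv]
    group
  have hb : FinRank (((bcU n f (U * S⁻¹) : (Module.End B (Ix n →₀ B))ˣ) :
      Module.End B (Ix n →₀ B)) - 1) := by
    have := FinRank.bc f h
    rwa [bc_sub, bc_one] at this
  have hc : FinRank (((toepPos n B a * bcU n f (U * S⁻¹) * (toepPos n B a)⁻¹ :
      (Module.End B (Ix n →₀ B))ˣ) : Module.End B (Ix n →₀ B)) - 1) := by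
    have e1 : ((toepPos n B a * bcU n f (U * S⁻¹) * (toepPos n B a)⁻¹ :
      (Module.End B (Ix n →₀ B))ˣ) : Module.End B (Ix n →₀ B)) - 1 =
      (toepPos n B a : Module.End B (Ix n →₀ B)) *
        (((bcU n f (U * S⁻¹) : (Module.End B (Ix n →₀ B))ˣ) : Module.End B (Ix n →₀ B)) - 1) *
        (((toepPos n B a)⁻¹ : (Module.End B (Ix n →₀ B))ˣ) : Module.End B (Ix n →₀ B)) :=
      ring_aux₃ (toepPos n B a : Module.End B (Ix n →₀ B))
        (((toepPos n B a)⁻¹ : (Module.End B (Ix n →₀ B))ˣ) : Module.End B (Ix n →₀ B))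
        ((bcU n f (U * S⁻¹) : (Module.End B (Ix n →₀ B))ˣ) : Module.End B (Ix n →₀ B))
        (Units.mul_inv (toepPos n B a))
    rw [e1]
    exact (hb.mul_left _).mul_right _
  rw [e, Units.val_mul, fdet_mul hc h', mul_comm]
  congr 1
  rw [Units.val_mul, Units.val_mul, fdet_conj _ hb]
  exact fdet_bc f h

end Framing

/-- The classifying stack of `SL_n/μ_d`, given by its test objects (with the trivial line bundle). -/
abbrev BG (n d : ℕ) : Site where
  C := BGObj n
  R X := X.A.R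
  res φ := BGHom.f φ
  res_id _ := rfl
  res_comp _ _ := rfl
  dl _ := 1
  dl_comp φ ψ := by simp
  cen X := {φ : X ⟶ X | BGHom.f φ = AlgHom.id ℂ X.A.R ∧ ∃ ζ : ℂ, ζ ^ d = 1 ∧
    (BGHom.h φ : Matrix (Fin n) (Fin n) X.A.R) = Matrix.scalar (Fin n) (algebraMap ℂ X.A.R ζ)}

theorem BunHom.eq {n d : ℕ} {X Y : BunObj n d} (φ : BunHom X Y) :
    Y.g * negGL n Y.A.R φ.b = posGL n Y.A.R φ.a *
      Matrix.GeneralLinearGroup.map (lmap (φ.f : X.A.R →+* Y.A.R)) X.g := φ.glue

theorem BunHom.finRank {n d : ℕ} {X Y : BunObj n d} (φ : BunHom X Y) :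
    FinRank (((transport (φ.f : X.A.R →+* Y.A.R) φ.a φ.b X.S * Y.S⁻¹ :
      (Module.End Y.A.R (Ix n →₀ Y.A.R))ˣ) : Module.End Y.A.R (Ix n →₀ Y.A.R)) - 1) :=
  (X.framing.transport _ φ.eq).div Y.framing

/-- The unit `δ` with `t_Y = δ • φ_* t_X`. -/
def BunHom.dl {n d : ℕ} {X Y : BunObj n d} (φ : BunHom X Y) : (Y.A.R)ˣ :=
  ratio (transport (φ.f : X.A.R →+* Y.A.R) φ.a φ.b X.S) Y.S φ.finRank

/-- The stack `Bun_{SL_n/μ_d}(ℙ¹)` with its canonical bundle `ω`, given by its test objects. -/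
abbrev Bun (n d : ℕ) : Site where
  C := BunObj n d
  R X := X.A.R
  res φ := BunHom.f φ
  res_id _ := rfl
  res_comp _ _ := rfl
  dl φ := BunHom.dl φ
  dl_comp {X Y Z} φ ψ := by
    apply Units.ext
    change fdet ((transport ((BunHom.f ψ : Y.A.R →+* Z.A.R).comp (BunHom.f φ : X.A.R →+* Y.A.R))
        (BunHom.a ψ * slm n (BunHom.f ψ : Y.A.R →+* Z.A.R) (BunHom.a φ))
        (BunHom.b ψ * slm n (BunHom.f ψ : Y.A.R →+* Z.A.R) (BunHom.b φ)) X.S * Z.S⁻¹ :
          (Module.End Z.A.R (Ix n →₀ Z.A.R))ˣ) : Module.End Z.A.R (Ix n →₀ Z.A.R)) = _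
    rw [← transport_transport]
    exact fdet_cocycle _ _ _ _ _ _ (BunHom.finRank φ) (BunHom.finRank ψ)
  cen X := {φ : X ⟶ X | BunHom.f φ = AlgHom.id ℂ X.A.R ∧ ∃ ζ : ℂ, ζ ^ d = 1 ∧
    (BunHom.a φ : Matrix (Fin n) (Fin n) (Polynomial X.A.R)) =
      Matrix.scalar (Fin n) (algebraMap ℂ (Polynomial X.A.R) ζ) ∧
    (BunHom.b φ : Matrix (Fin n) (Fin n) (Polynomial X.A.R)) =
      Matrix.scalar (Fin n) (algebraMap ℂ (Polynomial X.A.R) ζ)}

end

end Vale.Agent.P286
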