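import Mathlib

/-!
# Laurent matrices, Toeplitz operators, Fredholm determinants

`z = T` is the coordinate on `ℙ¹`.  A vector bundle on `ℙ¹_A` which is trivial on the two
standard charts is given by a transition matrix `g ∈ GL_n(A[z,z⁻¹])`; its automorphism data are
pairs `a ∈ SL_n(A[z])`, `b ∈ SL_n(A[z⁻¹])`.
-/

namespace Vale.Agent.P286

open LaurentPolynomial

noncomputable section

section Rings

variable {A B : Type} [CommRing A] [CommRing B]

/-- Base change of Laurent polynomials along a ring homomorphism (coefficientwise). -/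
def lmap (f : A →+* B) : A[T;T⁻¹] →+* B[T;T⁻¹] := AddMonoidAlgebra.mapRingHom ℤ f

/-- `SL_n(A[z]) → GL_n(A[z,z⁻¹])`. -/
def posGL (n : ℕ) (A : Type) [CommRing A] :
    Matrix.SpecialLinearGroup (Fin n) (Polynomial A) →* Matrix.GeneralLinearGroup (Fin n) A[T;T⁻¹] :=
  (Matrix.GeneralLinearGroup.map (Polynomial.toLaurent (R := A))).comp
    Matrix.SpecialLinearGroup.toGL

/-- `SL_n(A[z⁻¹]) → GL_n(A[z,z⁻¹])`; the variable of the polynomial ring is `z⁻¹`. -/
def negGL (n : ℕ) (A : Type) [CommRing A] :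
    Matrix.SpecialLinearGroup (Fin n) (Polynomial A) →* Matrix.GeneralLinearGroup (Fin n) A[T;T⁻¹] :=
  (Matrix.GeneralLinearGroup.map
    ((invert (R := A)).toRingEquiv.toRingHom.comp (Polynomial.toLaurent (R := A)))).comp
    Matrix.SpecialLinearGroup.toGL

end Rings

section Operators

variable {I : Type} {A B : Type} [CommRing A] [CommRing B]

/-- `φ` has finite rank: only finitely many coordinates of its values are nonzero. -/
def FinRank (φ : Module.End A (I →₀ A)) : Prop :=
  ∃ s : Finset I, ∀ (x : I →₀ A) (i : I), i ∉ s → φ x i = 0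

/-- The `s × s` minor of the matrix of `φ`. -/
def minor (φ : Module.End A (I →₀ A)) (s : Finset I) : Matrix s s A :=
  Matrix.of fun i j => φ (Finsupp.single (j : I) 1) (i : I)

open Classical in
/-- The Fredholm determinant of an operator `φ` such that `φ - 1` has finite rank: the common
value of `det (φ_{ij})_{i,j ∈ s}` for all large finite sets `s` of basis vectors. -/
def fdet (φ : Module.End A (I →₀ A)) : A :=
  if h : ∃ d : A, ∃ s₀ : Finset I, ∀ s : Finset I, s₀ ⊆ s → (minor φ s).det = d then h.choose else 1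

/-- Base change of an operator (matrix entries are mapped by `f`). -/
def bc (f : A →+* B) (φ : Module.End A (I →₀ A)) : Module.End B (I →₀ B) :=
  Finsupp.linearCombination B fun i => (φ (Finsupp.single i 1)).mapRange f (map_zero f)

end Operators

section Toeplitz

variable {n : ℕ} {A B : Type} [CommRing A] [CommRing B]

/-- The basis `E_{pq} z^{-l}` of `M_n(A[z⁻¹])`, indexed by `(l, p, q)`. -/
abbrev Ix (n : ℕ) : Type := ℕ × Fin n × Fin n

/-- The isomorphism of free modules `Ix n →₀ A ≃ M_n(A[z⁻¹])`, followed by the inclusion into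
`M_n(A[z,z⁻¹])`. -/
def toMat (n : ℕ) (A : Type) [CommRing A] :
    (Ix n →₀ A) →ₗ[A] Matrix (Fin n) (Fin n) A[T;T⁻¹] :=
  Finsupp.linearCombination A fun i : Ix n => Matrix.single i.2.1 i.2.2 (T (-(i.1 : ℤ)))

/-- The nonpositive part of a Laurent matrix; see `npart_apply`. -/
def npartFun (n : ℕ) (A : Type) [CommRing A] (M : Matrix (Fin n) (Fin n) A[T;T⁻¹]) : Ix n →₀ A :=
  ∑ p : Fin n, ∑ q : Fin n,
    ((M p q).coeff.comapDomain (fun l : ℕ => -(l : ℤ))
      (fun x _ y _ h => by simpa using h)).mapDomain (fun l : ℕ => ((l, p, q) : Ix n))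

theorem npartFun_apply (n : ℕ) (A : Type) [CommRing A] (M : Matrix (Fin n) (Fin n) A[T;T⁻¹])
    (i : Ix n) : npartFun n A M i = (M i.2.1 i.2.2).coeff (-(i.1 : ℤ)) := by
  classical
  obtain ⟨l, p, q⟩ := i
  have key : ∀ (p' q' : Fin n), (((M p' q').coeff.comapDomain (fun l : ℕ => -(l : ℤ))
      (fun x _ y _ h => by simpa using h)).mapDomain (fun l : ℕ => ((l, p', q') : Ix n))) (l, p, q)
      = if p' = p ∧ q' = q then (M p q).coeff (-(l : ℤ)) else 0 := by
    intro p' q'
    split_ifs with h
    · obtain ⟨rfl, rfl⟩ := h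
      rw [Finsupp.mapDomain_apply (fun a b h => by simpa using h)]
      rfl
    · apply Finsupp.mapDomain_of_notMem_range
      rintro ⟨l', h'⟩
      simp only [Prod.mk.injEq] at h'
      exact h ⟨h'.2.1, h'.2.2⟩
  simp only [npartFun, Finsupp.coe_finsetSum, Finset.sum_apply, key]
  rw [Finset.sum_eq_single p, Finset.sum_eq_single q]
  · simp
  · intro b _ hb; simp [hb]
  · simp
  · intro b _ hb; simp [hb]
  · simp

/-- The part of nonpositive degree of a Laurent matrix, as an element of `M_n(A[z⁻¹])`. -/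
def npart (n : ℕ) (A : Type) [CommRing A] :
    Matrix (Fin n) (Fin n) A[T;T⁻¹] →ₗ[A] (Ix n →₀ A) where
  toFun := npartFun n A
  map_add' M N := by ext i; simp [npartFun_apply]
  map_smul' a M := by ext i; simp [npartFun_apply]

theorem npart_apply (M : Matrix (Fin n) (Fin n) A[T;T⁻¹]) (i : Ix n) :
    npart n A M i = (M i.2.1 i.2.2).coeff (-(i.1 : ℤ)) := npartFun_apply n A M i

/-- The Toeplitz operator `X ↦ (g X g⁻¹)_{≤ 0}` on `M_n(A[z⁻¹])`.  Its kernel and cokernel are
`H⁰` and `H¹` of `End(E)(-1)` on `ℙ¹_A`, where `E` is the bundle with transition matrix `g`. -/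
def toep (g : Matrix.GeneralLinearGroup (Fin n) A[T;T⁻¹]) : Module.End A (Ix n →₀ A) :=
  (npart n A).comp
    ((LinearMap.mulLeft A (g : Matrix (Fin n) (Fin n) A[T;T⁻¹])).comp
      ((LinearMap.mulRight A ((g⁻¹ : Matrix.GeneralLinearGroup (Fin n) A[T;T⁻¹]) :
        Matrix (Fin n) (Fin n) A[T;T⁻¹])).comp (toMat n A)))

end Toeplitz

end

end Vale.Agent.P286
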