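import Vale.Agent.P286.St.Alg

/-!
# Twisted `D`-modules on a prestack, given by its category of smooth affine test objects

A *test category* `T : Site` is a category whose objects `X` are points `y` of a prestack over a
smooth `ℂ`-algebra `T.R X`, together with a generator `t` of the fibre at `y` of a line bundle `L`;
a morphism `φ : X ⟶ Y` is a homomorphism of algebras `T.res φ : T.R X → T.R Y` together with an
isomorphism of the base change of `y_X` with `y_Y`, and `T.dl φ` is the unit `δ` with
`t_Y = δ • φ_* t_X`.

A `TDMod T s` is a family of left `D`-modules with the transition maps of a left `D`-module over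
the sheaf of twisted differential operators acting on `L^s`.
-/

namespace Vale.Agent.P286

open CategoryTheory

/-- A category of smooth affine test objects of a prestack with a line bundle `L`. -/
structure Site where
  /-- test objects -/
  C : Type 1
  [cat : Category.{0} C]
  /-- the smooth algebra of a test object -/
  R : C → Type
  [ring : ∀ X, CommRing (R X)]
  [alg : ∀ X, Algebra ℂ (R X)]
  [smooth : ∀ X, Algebra.Smooth ℂ (R X)]
  /-- the algebra homomorphism of a morphism -/
  res : ∀ {X Y : C}, (X ⟶ Y) → (R X →ₐ[ℂ] R Y)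
  res_id : ∀ X : C, res (𝟙 X) = AlgHom.id ℂ (R X)
  res_comp : ∀ {X Y Z : C} (φ : X ⟶ Y) (ψ : Y ⟶ Z), res (φ ≫ ψ) = (res ψ).comp (res φ)
  /-- the unit `δ` with `t_Y = δ • φ_* t_X` -/
  dl : ∀ {X Y : C}, (X ⟶ Y) → (R Y)ˣ
  dl_comp : ∀ {X Y Z : C} (φ : X ⟶ Y) (ψ : Y ⟶ Z),
    dl (φ ≫ ψ) = dl ψ * Units.map (res ψ : R Y →* R Z) (dl φ)
  /-- automorphisms of test objects which are identified with the identity (the prestack is
  rigidified by them) -/
  cen : ∀ X : C, Set (X ⟶ X)

attribute [instance] Site.cat Site.ring Site.alg Site.smooth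

/-- The vector fields of a test object. -/
abbrev Site.Der (T : Site) (X : T.C) : Type := Derivation ℂ (T.R X) (T.R X)

/-- A left module over the sheaf of twisted differential operators acting on `L^s`
(without the condition that the transition maps are isomorphisms after base change). -/
structure TDMod (T : Site) (s : ℂ) where
  /-- the module of sections over a test object -/
  M : T.C → Type
  [grp : ∀ X, AddCommGroup (M X)]
  [mod : ∀ X, Module (T.R X) (M X)]
  /-- the action of vector fields -/
  act : ∀ X, T.Der X → M X → M X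
  act_add : ∀ X (v : T.Der X) (m m' : M X), act X v (m + m') = act X v m + act X v m'
  add_act : ∀ X (v w : T.Der X) (m : M X), act X (v + w) m = act X v m + act X w m
  smul_act : ∀ X (a : T.R X) (v : T.Der X) (m : M X), act X (a • v) m = a • act X v m
  leibniz : ∀ X (v : T.Der X) (a : T.R X) (m : M X),
    act X v (a • m) = v a • m + a • act X v m
  lie_act : ∀ X (v w : T.Der X) (m : M X),
    act X ⁅v, w⁆ m = act X v (act X w m) - act X w (act X v m)
  /-- the transition maps -/
  map : ∀ {X Y : T.C}, (X ⟶ Y) → M X →+ M Y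
  map_smul : ∀ {X Y : T.C} (φ : X ⟶ Y) (a : T.R X) (m : M X),
    map φ (a • m) = T.res φ a • map φ m
  map_id : ∀ (X : T.C) (m : M X), map (𝟙 X) m = m
  map_comp : ∀ {X Y Z : T.C} (φ : X ⟶ Y) (ψ : Y ⟶ Z) (m : M X),
    map (φ ≫ ψ) m = map ψ (map φ m)
  /-- the transition maps are horizontal up to the twist `s • dlog δ` -/
  map_act : ∀ {X Y : T.C} (φ : X ⟶ Y) (w : T.Der Y) (k : ℕ) (c : Fin k → T.R Y)
    (v : Fin k → T.Der X), (∀ a : T.R X, w (T.res φ a) = ∑ i, c i * T.res φ (v i a)) →
    ∀ m : M X, act Y w (map φ m) =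
      ∑ i, c i • map φ (act X (v i) m) -
        (algebraMap ℂ (T.R Y) s * ((T.dl φ)⁻¹ : (T.R Y)ˣ) * w (T.dl φ : T.R Y)) • map φ m
  map_cen : ∀ (X : T.C) (φ : X ⟶ X), φ ∈ T.cen X → ∀ m : M X, map φ m = m

attribute [instance] TDMod.grp TDMod.mod

namespace TDMod

variable {T : Site} {s : ℂ}

/-- Morphisms of twisted `D`-modules. -/
@[ext]
structure Hom (M N : TDMod T s) where
  app : ∀ X, M.M X →ₗ[T.R X] N.M X
  act : ∀ X (v : T.Der X) (m : M.M X), app X (M.act X v m) = N.act X v (app X m)
  nat : ∀ {X Y : T.C} (φ : X ⟶ Y) (m : M.M X), app Y (M.map φ m) = N.map φ (app X m)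

@[simp] theorem act_zero (M : TDMod T s) (X : T.C) (v : T.Der X) : M.act X v 0 = 0 := by
  have := M.act_add X v 0 0
  simpa using this

@[simp] theorem zero_act (M : TDMod T s) (X : T.C) (m : M.M X) : M.act X 0 m = 0 := by
  have := M.add_act X 0 0 m
  simpa using this

theorem act_neg (M : TDMod T s) (X : T.C) (v : T.Der X) (m : M.M X) :
    M.act X v (-m) = - M.act X v m := by
  have := M.act_add X v m (-m)
  rw [add_neg_cancel, act_zero] at this
  exact (neg_eq_of_add_eq_zero_right this.symm).symm

theorem act_sub (M : TDMod T s) (X : T.C) (v : T.Der X) (m m' : M.M X) :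
    M.act X v (m - m') = M.act X v m - M.act X v m' := by
  rw [sub_eq_add_neg, M.act_add, act_neg, sub_eq_add_neg]

theorem act_csmul (M : TDMod T s) (X : T.C) (v : T.Der X) (c : ℂ) (m : M.M X) :
    M.act X v (algebraMap ℂ (T.R X) c • m) = algebraMap ℂ (T.R X) c • M.act X v m := by
  rw [M.leibniz]
  simp

namespace Hom

variable {M N : TDMod T s}

theorem app_injective : Function.Injective (Hom.app : Hom M N → _) := fun _ _ h => Hom.ext h

instance : Zero (Hom M N) := ⟨⟨fun _ => 0, by simp, by simp⟩⟩
instance : Add (Hom M N) := ⟨fun f g => ⟨fun X => f.app X + g.app X,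
  fun X v m => by simp [f.act, g.act, N.act_add], fun φ m => by simp [f.nat, g.nat]⟩⟩
instance : Neg (Hom M N) := ⟨fun f => ⟨fun X => - f.app X,
  fun X v m => by simp [f.act, N.act_neg], fun φ m => by simp [f.nat]⟩⟩
instance : Sub (Hom M N) := ⟨fun f g => ⟨fun X => f.app X - g.app X,
  fun X v m => by simp [f.act, g.act, N.act_sub], fun φ m => by simp [f.nat, g.nat]⟩⟩
instance : SMul ℂ (Hom M N) := ⟨fun c f => ⟨fun X => algebraMap ℂ (T.R X) c • f.app X,
  fun X v m => by simp only [LinearMap.smul_apply, f.act, N.act_csmul],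
  fun φ m => by simp [f.nat, N.map_smul]⟩⟩

@[simp] theorem zero_app (X : T.C) : (0 : Hom M N).app X = 0 := rfl
@[simp] theorem add_app (f g : Hom M N) (X : T.C) : (f + g).app X = f.app X + g.app X := rfl
@[simp] theorem neg_app (f : Hom M N) (X : T.C) : (-f).app X = - f.app X := rfl
@[simp] theorem sub_app (f g : Hom M N) (X : T.C) : (f - g).app X = f.app X - g.app X := rfl
@[simp] theorem smul_app (c : ℂ) (f : Hom M N) (X : T.C) :
    (c • f).app X = algebraMap ℂ (T.R X) c • f.app X := rfl

instance : SMul ℕ (Hom M N) := ⟨nsmulRec⟩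
instance : SMul ℤ (Hom M N) := ⟨zsmulRec⟩

instance : AddCommGroup (Hom M N) where
  add_assoc f g h := by ext; simp [add_assoc]
  zero_add f := by ext; simp
  add_zero f := by ext; simp
  neg_add_cancel f := by ext; simp
  add_comm f g := by ext; simp [add_comm]
  sub_eq_add_neg f g := by ext; simp [sub_eq_add_neg]
  nsmul := nsmulRec
  zsmul := zsmulRec

instance : Module ℂ (Hom M N) where
  one_smul f := by ext; simp
  mul_smul c c' f := by ext; simp [mul_smul]
  smul_zero c := by ext; simp
  zero_smul f := by ext; simp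
  add_smul c c' f := by ext; simp [add_smul]
  smul_add c f g := by ext; simp

end Hom

instance : Category (TDMod T s) where
  Hom M N := Hom M N
  id M := ⟨fun _ => LinearMap.id, by simp, by simp⟩
  comp f g := ⟨fun X => (g.app X).comp (f.app X), by simp [f.act, g.act], by simp [f.nat, g.nat]⟩

@[simp] theorem id_app (M : TDMod T s) (X : T.C) : Hom.app (𝟙 M) X = LinearMap.id := rfl
@[simp] theorem comp_app {M N P : TDMod T s} (f : M ⟶ N) (g : N ⟶ P) (X : T.C) :
    Hom.app (f ≫ g) X = (Hom.app g X).comp (Hom.app f X) := rfl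

@[ext] theorem hom_ext {M N : TDMod T s} {f g : M ⟶ N}
    (h : ∀ X m, Hom.app f X m = Hom.app g X m) : f = g :=
  Hom.ext (funext fun X => LinearMap.ext (h X))

instance : Preadditive (TDMod T s) where
  homGroup M N := inferInstanceAs (AddCommGroup (Hom M N))
  add_comp M N P f g h := by
    apply hom_ext; intro X m
    exact map_add (Hom.app h X) _ _
  comp_add M N P f g h := by
    apply hom_ext; intro X m
    rfl

instance : Linear ℂ (TDMod T s) where
  homModule M N := inferInstanceAs (Module ℂ (Hom M N))
  smul_comp M N P c f g := by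
    apply hom_ext; intro X m
    exact _root_.map_smul (Hom.app g X) _ _
  comp_smul M N P f c g := by
    apply hom_ext; intro X m
    rfl

end TDMod

/-- For two three-term complexes `X₁ → X₂ → X₃` and `Y₁ → Y₂ → Y₃` and a map `u : X₂ → Y₂`
(which is part of a map of complexes): `u` induces a bijection on the cohomology in the middle. -/
def HIso {X₁ X₂ X₃ Y₁ Y₂ Y₃ : Type} [AddCommGroup X₁] [AddCommGroup X₂] [AddCommGroup X₃]
    [AddCommGroup Y₁] [AddCommGroup Y₂] [AddCommGroup Y₃]
    (d₁ : X₁ →+ X₂) (d₂ : X₂ →+ X₃) (e₁ : Y₁ →+ Y₂) (e₂ : Y₂ →+ Y₃) (u : X₂ →+ Y₂) : Prop :=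
  (∀ x : X₂, d₂ x = 0 → (∃ y : Y₁, e₁ y = u x) → ∃ x' : X₁, d₁ x' = x) ∧
  (∀ y : Y₂, e₂ y = 0 → ∃ x : X₂, d₂ x = 0 ∧ ∃ y' : Y₁, e₁ y' = y - u x)

/-- Complexes of twisted `D`-modules. -/
abbrev TCx (T : Site) (s : ℂ) : Type 1 := CochainComplex (TDMod T s) ℤ

namespace TCx

variable {T : Site} {s : ℂ}

/-- The sections of the complex `K` in degree `i` over the test object `X`. -/
abbrev obj (K : TCx T s) (i : ℤ) (X : T.C) : Type := (HomologicalComplex.X K i).M X

/-- The differential of the complex of sections over `X`. -/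
def d (K : TCx T s) (X : T.C) (i j : ℤ) : K.obj i X →+ K.obj j X :=
  (TDMod.Hom.app (HomologicalComplex.d K i j) X).toAddMonoidHom

/-- The transition maps of the complex of sections. -/
def map (K : TCx T s) {X Y : T.C} (φ : X ⟶ Y) (i : ℤ) : K.obj i X →+ K.obj i Y :=
  (HomologicalComplex.X K i).map φ

end TCx

/-- The quasi-isomorphisms: morphisms of complexes which induce bijections on the cohomology of the
complexes of sections over all test objects. -/
def qis (T : Site) (s : ℂ) : MorphismProperty (TCx T s) := fun K L f =>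
  ∀ (X : T.C) (i j k : ℤ), i + 1 = j → j + 1 = k →
    HIso (K.d X i j) (K.d X j k) (L.d X i j) (L.d X j k)
      (TDMod.Hom.app (HomologicalComplex.Hom.f f j) X).toAddMonoidHom

section BaseChange

variable {A B : Type} [CommRing A] [CommRing B] (f : A →+* B)

/-- The map `B ⊗_A P → N`, `b ⊗ x ↦ b • u x`, defined by a semilinear map `u : P → N` to a
`B`-module. -/
noncomputable def ExtS.lift {P N : Type} [AddCommGroup P] [Module A P] [AddCommGroup N] [Module B N]
    (u : P →+ N) (hu : ∀ (a : A) (x : P), u (a • x) = f a • u x) : ExtS f P →+ N :=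
  letI : Module A B := Module.compHom B f
  TensorProduct.liftAddHom
    { toFun := fun b => (DistribSMul.toAddMonoidHom N b).comp u
      map_zero' := by ext; simp
      map_add' := fun b b' => by ext; simp [add_smul] }
    (fun a b x => by
      change (f a * b) • u x = b • u (a • x)
      rw [hu, smul_smul, mul_comm])

end BaseChange

/-- The complex `K` of twisted `D`-modules is *cartesian*, i.e. it satisfies
`Lf^* K(X) ≃ K(Y)` for all morphisms `φ : X ⟶ Y` of test objects, `f = T.res φ`.

The algebra `T.R X` is smooth over `ℂ`, hence it has finite global dimension and the derived pullback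
of the complex of modules `K(X)` is computed by any complex `P` of flat modules with a
quasi-isomorphism `P → K(X)`. -/
def Cartesian {T : Site} {s : ℂ} (K : TCx T s) : Prop :=
  ∀ X : T.C, ∃ P : MCx (T.R X), (∀ i, Module.Flat (T.R X) (P.X i)) ∧
    ∃ p : ∀ i, P.X i →ₗ[T.R X] K.obj i X,
      (∀ i j x, p j (P.d i j x) = K.d X i j (p i x)) ∧
      (∀ i j k, i + 1 = j → j + 1 = k →
        HIso (P.d i j).toAddMonoidHom (P.d j k).toAddMonoidHom (K.d X i j) (K.d X j k)
          (p j).toAddMonoidHom) ∧
      ∀ (Y : T.C) (φ : X ⟶ Y) (i j k : ℤ), i + 1 = j → j + 1 = k →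
        HIso (ExtS.map (T.res φ).toRingHom (P.d i j)) (ExtS.map (T.res φ).toRingHom (P.d j k))
          (K.d Y i j) (K.d Y j k)
          (ExtS.lift (T.res φ).toRingHom ((K.map φ j).comp (p j).toAddMonoidHom)
            (fun a x => by simp [TCx.map, TDMod.map_smul]))

/-- The cartesian complexes. -/
def cartesian (T : Site) (s : ℂ) : ObjectProperty (TCx T s) := fun K => Cartesian K

/-- The category of cartesian complexes of twisted `D`-modules. -/
abbrev CartCx (T : Site) (s : ℂ) : Type 1 := (cartesian T s).FullSubcategory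

/-- The quasi-isomorphisms of cartesian complexes. -/
abbrev qisCart (T : Site) (s : ℂ) : MorphismProperty (CartCx T s) :=
  (qis T s).inverseImage (cartesian T s).ι

/-- A `ℂ`-linear functor `Φ` between categories of twisted `D`-modules defines (termwise) a DG functor
between the DG categories of complexes.  It *is a quasi-equivalence* if it preserves cartesian
complexes and quasi-isomorphisms of cartesian complexes and induces an equivalence of the
categories obtained by inverting the quasi-isomorphisms of cartesian complexes; these are the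
homotopy categories of the pretriangulated DG categories
`(cartesian complexes)/(acyclic cartesian complexes)`. -/
structure IsQuasiEquiv {T T' : Site} {s s' : ℂ} (Φ : TDMod T s ⥤ TDMod T' s') [Φ.Additive]
    [Φ.Linear ℂ] : Prop where
  cart : ∀ K : TCx T s, cartesian T s K →
    cartesian T' s' ((Φ.mapHomologicalComplex (ComplexShape.up ℤ)).obj K)
  qis : ∀ (K L : TCx T s) (u : K ⟶ L), Cartesian K → Cartesian L → qis T s u →
    qis T' s' ((Φ.mapHomologicalComplex (ComplexShape.up ℤ)).map u)
  equiv : (LocalizerMorphism.mk (W₁ := qisCart T s) (W₂ := qisCart T' s')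
    ((cartesian T' s').lift
      ((cartesian T s).ι ⋙ Φ.mapHomologicalComplex (ComplexShape.up ℤ))
      (fun K => cart K.obj K.property))
    (fun K L u hu => qis K.obj L.obj u.hom K.property L.property hu)).IsLocalizedEquivalence

/-- One step of an equivalence between the DG categories of cartesian complexes of
`D(L^s)`-modules and of `D(L'^s')`-modules: a quasi-equivalence defined by a linear functor. -/
def DGStep (P Q : Site × ℂ) : Prop :=
  ∃ (Φ : TDMod P.1 P.2 ⥤ TDMod Q.1 Q.2) (_ : Φ.Additive) (_ : Φ.Linear ℂ), IsQuasiEquiv Φ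

/-- The DG categories of cartesian complexes of `D(L^s)`-modules and of `D(L'^s')`-modules (with the
quasi-isomorphisms inverted) are equivalent: they are connected by a zigzag of quasi-equivalences. -/
def DGEquivalent (P Q : Site × ℂ) : Prop := Relation.EqvGen DGStep P Q

end Vale.Agent.P286
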